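import Vale.Agent.P100.Bdl.B3

namespace Vale.Agent.Results.P100.Main

open Vale.Agent.P100

/-- The Henon-Lane-Emden conjecture: for all subcritical parameters (and whenever `A ≤ -2` or
`B ≤ -2`) the system has no positive entire solution. No boundedness, decay, symmetry or stability
assumption. -/
theorem result (n : ℕ) (hn : 2 ≤ n) (p q A B : ℝ) (hp : 0 < p) (hq : 0 < q)
    (h : (n : ℝ) - 2 < ((n : ℝ) + A) / (p + 1) + ((n : ℝ) + B) / (q + 1) ∨ A ≤ -2 ∨ B ≤ -2) :
    ¬ ∃ u v : EuclideanSpace ℝ (Fin n) → ℝ, IsPositiveEntireSolution n p q A B u v := by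
  rcases h with h | h | h
  · exact RM.no_solution_all hn hp hq (Or.inr (Or.inr h))
  · exact RM.no_solution_all hn hp hq (Or.inl h)
  · exact RM.no_solution_all hn hp hq (Or.inr (Or.inl h))

end Vale.Agent.Results.P100.Main
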